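import Mathlib.LinearAlgebra.Matrix.DotProduct
import Mathlib.Analysis.Calculus.FDeriv.Basic
import Mathlib.Analysis.Calculus.ContDiff.Defs

/-!
# P204: definitions for the one-coordinate case on the four-torus

A differential form of degree two on `ℝ⁴/ℤ⁴` is given by its smooth, `ℤ⁴`-periodic, skew matrix of
coefficients, `ω_x(v, w) = v ⬝ᵥ ω x *ᵥ w`.
-/

open scoped ContDiff Matrix

namespace Vale.Agent.P204

/-- A point of `ℝ⁴`, or a tangent vector. -/
abbrev Pt := Fin 4 → ℝ

/-- `ℤ⁴`-periodicity. -/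
def Periodic4 {α : Type} (f : Pt → α) : Prop :=
  ∀ (i : Fin 4) (x : Pt), f (x + Pi.single i 1) = f x

/-- The partial derivative in direction `i`. -/
noncomputable def pd (i : Fin 4) (f : Pt → ℝ) (x : Pt) : ℝ :=
  fderiv ℝ f x (Pi.single i 1)

/-- A closed smooth two-form on the four-torus. -/
structure IsClosedForm (om : Pt → Matrix (Fin 4) (Fin 4) ℝ) : Prop where
  smooth : ∀ i j, ContDiff ℝ ∞ (fun x => om x i j)
  periodic : Periodic4 om
  skew : ∀ x, (om x)ᵀ = -om x
  closed : ∀ i j k x,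
    pd i (fun y => om y j k) x + pd j (fun y => om y k i) x + pd k (fun y => om y i j) x = 0

/-- A smooth almost complex structure on the four-torus. -/
structure IsAlmostComplex (J : Pt → Matrix (Fin 4) (Fin 4) ℝ) : Prop where
  smooth : ∀ i j, ContDiff ℝ ∞ (fun x => J x i j)
  periodic : Periodic4 J
  sq : ∀ x, J x * J x = -1

/-- `ω(v, Jv) > 0` for every nonzero tangent vector `v`. -/
def Tames (om J : Pt → Matrix (Fin 4) (Fin 4) ℝ) : Prop :=
  ∀ (x v : Pt), v ≠ 0 → 0 < v ⬝ᵥ (om x *ᵥ (J x *ᵥ v))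

/-- `ω(Ju, Jv) = ω(u, v)` for all tangent vectors at the same point. -/
def Invariant (om J : Pt → Matrix (Fin 4) (Fin 4) ℝ) : Prop :=
  ∀ x, (J x)ᵀ * om x * J x = om x

end Vale.Agent.P204
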