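import Mathlib
import Vale.Agent.P204.Defs

/-! # P204: an invariant form with prescribed restriction to a hyperplane

For a complex structure `j` on `ℝ⁴` and a two-form `C` on the hyperplane `W = {v₀ = 0}` the form
`invForm C j` is `j`-invariant and restricts to `C` on `W`; `vertForm j` is invariant, semipositive
and vanishes on `W`.
-/

open scoped Matrix
open Matrix

namespace Vale.Agent.P204

abbrev M4 := Matrix (Fin 4) (Fin 4) ℝ

def e0 : Pt := Pi.single 0 1
/-- The first row of `j`: the covector `v ↦ (j v)₀`. -/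
def row0 (j : M4) : Pt := fun k => j 0 k
/-- Its spatial part. -/
def rowS (j : M4) : Pt := fun k => if k = 0 then 0 else j 0 k
/-- A spatial vector with `(j u)₀ = 1`. -/
noncomputable def uVec (j : M4) : Pt := (rowS j ⬝ᵥ rowS j)⁻¹ • rowS j
/-- The projection onto `W ∩ jW` along `u, ju`. -/
noncomputable def proj (j : M4) : M4 :=
  1 - vecMulVec (j *ᵥ uVec j) e0 - vecMulVec (uVec j) (row0 j)
noncomputable def kVec (C j : M4) : Pt := (proj j)ᵀ *ᵥ (C *ᵥ uVec j)
noncomputable def mVec (C j : M4) : Pt := (proj j)ᵀ *ᵥ (jᵀ *ᵥ (C *ᵥ uVec j))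
/-- The invariant extension of `C`. -/
noncomputable def invForm (C j : M4) : M4 :=
  (proj j)ᵀ * C * proj j + (vecMulVec (kVec C j) (row0 j) - vecMulVec (row0 j) (kVec C j))
    - (vecMulVec (mVec C j) e0 - vecMulVec e0 (mVec C j))
/-- The semipositive invariant form vanishing on `W`. -/
def vertForm (j : M4) : M4 := vecMulVec (row0 j) e0 - vecMulVec e0 (row0 j)

/-- The value of the form with matrix `S` on `(v, w)`. -/
def ev (S : M4) (v w : Pt) : ℝ := v ⬝ᵥ (S *ᵥ w)

theorem e0_dot (v : Pt) : e0 ⬝ᵥ v = v 0 := by simp [e0]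
theorem row0_dot (j : M4) (v : Pt) : row0 j ⬝ᵥ v = (j *ᵥ v) 0 := rfl

theorem jj_mulVec {j : M4} (hj : j * j = -1) (v : Pt) : j *ᵥ (j *ᵥ v) = -v := by
  rw [mulVec_mulVec, hj, neg_mulVec, one_mulVec]

theorem rowS_pos {j : M4} (hj : j * j = -1) : 0 < rowS j ⬝ᵥ rowS j := by
  have hne : rowS j ≠ 0 := by
    intro h
    have h1 := congr_fun h 1; have h2 := congr_fun h 2; have h3 := congr_fun h 3
    simp [rowS] at h1 h2 h3
    have := congr_fun (congr_fun hj 0) 0
    simp [Matrix.mul_apply, Fin.sum_univ_four, h1, h2, h3] at this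
    nlinarith [mul_self_nonneg (j 0 0)]
  exact lt_of_le_of_ne (Finset.sum_nonneg fun i _ => mul_self_nonneg _)
    (fun h => hne (dotProduct_self_eq_zero.1 h.symm))

theorem uVec_zero (j : M4) : uVec j 0 = 0 := by simp [uVec, rowS]

theorem row0_uVec {j : M4} (hj : j * j = -1) : row0 j ⬝ᵥ uVec j = 1 := by
  have : row0 j ⬝ᵥ rowS j = rowS j ⬝ᵥ rowS j := by
    simp [dotProduct, rowS, row0, Fin.sum_univ_four]
  rw [uVec, dotProduct_smul, this, smul_eq_mul, inv_mul_cancel₀ (rowS_pos hj).ne']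

theorem proj_mulVec (j : M4) (v : Pt) :
    proj j *ᵥ v = v - v 0 • (j *ᵥ uVec j) - (row0 j ⬝ᵥ v) • uVec j := by
  simp [proj, sub_mulVec, vecMulVec_mulVec, e0_dot]

theorem proj_zero {j : M4} (hj : j * j = -1) (v : Pt) : (proj j *ᵥ v) 0 = 0 := by
  rw [proj_mulVec]
  simp only [Pi.sub_apply, Pi.smul_apply, smul_eq_mul]
  rw [← row0_dot j (uVec j), row0_uVec hj, uVec_zero]
  ring

theorem proj_row0 {j : M4} (hj : j * j = -1) (v : Pt) : row0 j ⬝ᵥ (proj j *ᵥ v) = 0 := by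
  rw [proj_mulVec, dotProduct_sub, dotProduct_sub, dotProduct_smul, dotProduct_smul,
    row0_uVec hj, row0_dot j (j *ᵥ uVec j), jj_mulVec hj]
  simp [uVec_zero]

theorem row0_j {j : M4} (hj : j * j = -1) (v : Pt) : row0 j ⬝ᵥ (j *ᵥ v) = -(v 0) := by
  rw [row0_dot, jj_mulVec hj]; rfl

theorem proj_j {j : M4} (hj : j * j = -1) (v : Pt) :
    proj j *ᵥ (j *ᵥ v) = j *ᵥ (proj j *ᵥ v) := by
  rw [proj_mulVec, proj_mulVec, row0_j hj, ← row0_dot, mulVec_sub, mulVec_sub, mulVec_smul,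
    mulVec_smul, jj_mulVec hj]
  module

theorem ev_swap {C : M4} (hC : Cᵀ = -C) (a b : Pt) : ev C a b = -ev C b a := by
  unfold ev
  rw [dotProduct_mulVec, ← mulVec_transpose, hC, neg_mulVec, neg_dotProduct, dotProduct_comm]

theorem ev_self {C : M4} (hC : Cᵀ = -C) (a : Pt) : ev C a a = 0 := by
  linarith [ev_swap hC a a]

/-- Any two-form is invariant on the complex line `W ∩ jW`. -/
theorem ev_line {C j : M4} (hC : Cᵀ = -C) (hj : j * j = -1) {q p : Pt} (q0 : q 0 = 0)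
    (qr : row0 j ⬝ᵥ q = 0) (p0 : p 0 = 0) (pr : row0 j ⬝ᵥ p = 0) :
    ev C (j *ᵥ q) (j *ᵥ p) = ev C q p := by
  by_cases hq : q = 0
  · simp [hq, ev]
  set u := uVec j with hu
  let b : Fin 4 → Pt := ![u, j *ᵥ u, q, j *ᵥ q]
  have hu0 : u 0 = 0 := by rw [hu, uVec_zero]
  have hur : row0 j ⬝ᵥ u = 1 := by rw [hu]; exact row0_uVec hj
  have hju : (j *ᵥ u) 0 = 1 := by rw [← row0_dot]; exact row0_uVec hj
  have hjju : row0 j ⬝ᵥ (j *ᵥ u) = 0 := by rw [row0_j hj, hu, uVec_zero, neg_zero]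
  have hjq : (j *ᵥ q) 0 = 0 := by rw [← row0_dot]; exact qr
  have hjjq : row0 j ⬝ᵥ (j *ᵥ q) = 0 := by rw [row0_j hj, q0, neg_zero]
  have hpair : ∀ c d : ℝ, c • q + d • (j *ᵥ q) = 0 → c = 0 ∧ d = 0 := by
    intro c d h
    have h2 : c • (j *ᵥ q) - d • q = 0 := by
      have := congrArg (fun v => j *ᵥ v) h
      simp [mulVec_add, mulVec_smul, jj_mulVec hj] at this
      rw [sub_eq_add_neg]; exact this
    have h3 : (c * c + d * d) • q = 0 := by
      have : (c * c + d * d) • q = c • (c • q + d • (j *ᵥ q)) - d • (c • (j *ᵥ q) - d • q) := by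
        module
      rw [this, h, h2]; simp
    have h4 := (smul_eq_zero.1 h3).resolve_right hq
    constructor <;> nlinarith [mul_self_nonneg c, mul_self_nonneg d]
  have hli : LinearIndependent ℝ b := by
    rw [Fintype.linearIndependent_iff]
    intro g hg
    simp [b, Fin.sum_univ_four] at hg
    have g1 : g 1 = 0 := by
      have := congr_fun hg 0
      simpa [hu0, hju, q0, hjq] using this
    have g0 : g 0 = 0 := by
      have := congrArg (fun v => row0 j ⬝ᵥ v) hg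
      simpa [dotProduct_add, dotProduct_smul, hur, hjju, qr, hjjq] using this
    rw [g0, g1] at hg
    obtain ⟨g2, g3⟩ := hpair (g 2) (g 3) (by simpa using hg)
    intro i; fin_cases i <;> assumption
  have htop := hli.span_eq_top_of_card_eq_finrank (by simp)
  obtain ⟨g, hg⟩ := (Submodule.mem_span_range_iff_exists_fun ℝ).1
    (htop ▸ Submodule.mem_top : p ∈ Submodule.span ℝ (Set.range b))
  simp [b, Fin.sum_univ_four] at hg
  have g1 : g 1 = 0 := by
    have := congr_fun hg 0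
    simpa [hu0, hju, q0, hjq, p0] using this
  have g0 : g 0 = 0 := by
    have := congrArg (fun v => row0 j ⬝ᵥ v) hg
    simpa [dotProduct_add, dotProduct_smul, hur, hjju, qr, hjjq, pr] using this
  rw [g0, g1] at hg
  simp at hg
  subst hg
  have e1 : j *ᵥ (g 2 • q + g 3 • (j *ᵥ q)) = g 2 • (j *ᵥ q) + g 3 • (-q) := by
    rw [mulVec_add, mulVec_smul, mulVec_smul, jj_mulVec hj]
  rw [e1]
  have e := ev_swap hC (j *ᵥ q) q
  have z1 := ev_self hC q
  have z2 := ev_self hC (j *ᵥ q)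
  simp only [ev, mulVec_add, mulVec_smul, mulVec_neg, dotProduct_add, dotProduct_smul,
    dotProduct_neg, smul_eq_mul] at e z1 z2 ⊢
  rw [z1, z2, e]
  ring

theorem ev_vecMulVec (a b v w : Pt) : ev (vecMulVec a b) v w = (a ⬝ᵥ v) * (b ⬝ᵥ w) := by
  simp [ev, vecMulVec_mulVec, dotProduct_comm v a, mul_comm]

theorem ev_add (A B : M4) (v w : Pt) : ev (A + B) v w = ev A v w + ev B v w := by
  simp [ev, add_mulVec]
theorem ev_sub (A B : M4) (v w : Pt) : ev (A - B) v w = ev A v w - ev B v w := by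
  simp [ev, sub_mulVec]

theorem ev_conj (Q C : M4) (v w : Pt) : ev (Qᵀ * C * Q) v w = ev C (Q *ᵥ v) (Q *ᵥ w) := by
  unfold ev
  rw [← mulVec_mulVec, ← mulVec_mulVec, dotProduct_mulVec, vecMul_transpose]

theorem transpose_mulVec_dot (Q : M4) (a v : Pt) : (Qᵀ *ᵥ a) ⬝ᵥ v = (Q *ᵥ v) ⬝ᵥ a := by
  rw [dotProduct_comm, dotProduct_mulVec, vecMul_transpose]

theorem ev_invForm (C j : M4) (v w : Pt) :
    ev (invForm C j) v w = ev C (proj j *ᵥ v) (proj j *ᵥ w)
      + ((row0 j ⬝ᵥ w) * ev C (proj j *ᵥ v) (uVec j)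
        - (row0 j ⬝ᵥ v) * ev C (proj j *ᵥ w) (uVec j))
      - (w 0 * ev C (j *ᵥ (proj j *ᵥ v)) (uVec j)
        - v 0 * ev C (j *ᵥ (proj j *ᵥ w)) (uVec j)) := by
  simp only [invForm, ev_sub, ev_add, ev_conj, ev_vecMulVec, kVec, mVec, e0_dot,
    transpose_mulVec_dot]
  have : ∀ a : Pt, a ⬝ᵥ (jᵀ *ᵥ (C *ᵥ uVec j)) = ev C (j *ᵥ a) (uVec j) := fun a => by
    rw [dotProduct_comm, transpose_mulVec_dot]; rfl
  simp only [this]
  unfold ev
  ring

theorem ev_vertForm (j : M4) (v w : Pt) :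
    ev (vertForm j) v w = (row0 j ⬝ᵥ v) * w 0 - v 0 * (row0 j ⬝ᵥ w) := by
  simp only [vertForm, ev_sub, ev_vecMulVec, e0_dot]

theorem ev_vertForm_J {j : M4} (hj : j * j = -1) (v : Pt) :
    ev (vertForm j) v (j *ᵥ v) = (row0 j ⬝ᵥ v) ^ 2 + (v 0) ^ 2 := by
  rw [ev_vertForm, row0_j hj, ← row0_dot]; ring

theorem ev_single (A : M4) (a b : Fin 4) : ev A (Pi.single a 1) (Pi.single b 1) = A a b := by
  simp [ev]

theorem eq_of_ev {A B : M4} (h : ∀ v w, ev A v w = ev B v w) : A = B := by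
  ext a b; rw [← ev_single A a b, h, ev_single]

theorem ev_pullback (A j : M4) (v w : Pt) : ev (jᵀ * A * j) v w = ev A (j *ᵥ v) (j *ᵥ w) :=
  ev_conj j A v w

theorem invForm_invariant {C j : M4} (hC : Cᵀ = -C) (hj : j * j = -1) :
    jᵀ * invForm C j * j = invForm C j := by
  refine eq_of_ev fun v w => ?_
  have hn : ∀ a : Pt, ev C (-a) (uVec j) = -ev C a (uVec j) := fun a => by
    simp [ev]
  rw [ev_pullback, ev_invForm, ev_invForm, proj_j hj, proj_j hj, row0_j hj, row0_j hj,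
    ← row0_dot, ← row0_dot, jj_mulVec hj, jj_mulVec hj, hn, hn,
    ev_line hC hj (proj_zero hj v) (proj_row0 hj v) (proj_zero hj w) (proj_row0 hj w)]
  ring

theorem vertForm_invariant {j : M4} (hj : j * j = -1) : jᵀ * vertForm j * j = vertForm j := by
  refine eq_of_ev fun v w => ?_
  rw [ev_pullback, ev_vertForm, ev_vertForm, row0_j hj, row0_j hj, ← row0_dot, ← row0_dot]
  ring

theorem invForm_skew {C : M4} (hC : Cᵀ = -C) (j : M4) : (invForm C j)ᵀ = -invForm C j := by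
  simp only [invForm, transpose_sub, transpose_add, transpose_mul, transpose_transpose,
    transpose_vecMulVec, hC]
  simp only [Matrix.neg_mul, Matrix.mul_neg, Matrix.mul_assoc]
  abel

theorem vertForm_skew (j : M4) : (vertForm j)ᵀ = -vertForm j := by
  simp [vertForm, transpose_sub, transpose_vecMulVec]

theorem invForm_spatial {C j : M4} (hC : Cᵀ = -C) {a b : Fin 4} (ha : a ≠ 0) (hb : b ≠ 0) :
    invForm C j a b = C a b := by
  set v : Pt := Pi.single a 1 with hv
  set w : Pt := Pi.single b 1 with hw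
  have v0 : v 0 = 0 := by simp [hv, Ne.symm ha]
  have w0 : w 0 = 0 := by simp [hw, Ne.symm hb]
  rw [← ev_single (invForm C j), ← ev_single C, ← hv, ← hw, ev_invForm, proj_mulVec, proj_mulVec,
    v0, w0]
  have e := ev_swap hC (uVec j) w
  have z := ev_self hC (uVec j)
  simp only [ev, zero_smul, sub_zero, zero_mul, mulVec_sub, mulVec_smul, dotProduct_sub,
    sub_dotProduct, dotProduct_smul, smul_dotProduct, smul_eq_mul] at e z ⊢
  rw [z, e]
  ring

theorem vertForm_spatial (j : M4) {a b : Fin 4} (ha : a ≠ 0) (hb : b ≠ 0) :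
    vertForm j a b = 0 := by
  simp [vertForm, vecMulVec_apply, e0, ha, hb]

theorem ev_invForm_line {C j : M4} {v : Pt} (hj : j * j = -1) (v0 : v 0 = 0)
    (vr : row0 j ⬝ᵥ v = 0) : ev (invForm C j) v (j *ᵥ v) = ev C v (j *ᵥ v) := by
  have hp : proj j *ᵥ v = v := by simp [proj_mulVec, v0, vr]
  rw [ev_invForm, proj_j hj, hp, row0_j hj, ← row0_dot, v0, vr]
  ring

end Vale.Agent.P204
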