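import Mathlib
import Vale.Agent.P204.Defs

/-! # P204: coordinate averages of periodic functions -/

open scoped ContDiff
open MeasureTheory intervalIntegral

namespace Vale.Agent.P204

/-- The average over one period in direction `i`. -/
noncomputable def avg (i : Fin 4) (f : Pt → ℝ) (x : Pt) : ℝ :=
  ∫ s in (0:ℝ)..1, f (x + s • Pi.single i 1)

/-- The average over the three directions `1, 2, 3`. -/
noncomputable def avg3 (f : Pt → ℝ) : Pt → ℝ := avg 1 (avg 2 (avg 3 f))

/-- `C¹` functions. -/
abbrev C1 (f : Pt → ℝ) : Prop := ContDiff ℝ 1 f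

theorem cont_line {E : Type} [TopologicalSpace E] {g : Pt → E} (hg : Continuous g) (i : Fin 4) :
    Continuous fun p : Pt × ℝ => g (p.1 + p.2 • Pi.single i (1:ℝ)) :=
  hg.comp (continuous_fst.add (continuous_snd.smul continuous_const))

theorem cont_line' {E : Type} [TopologicalSpace E] {g : Pt → E} (hg : Continuous g) (i : Fin 4)
    (x : Pt) : Continuous fun s : ℝ => g (x + s • Pi.single i (1:ℝ)) :=
  hg.comp (continuous_const.add (continuous_id.smul continuous_const))

theorem avg_hasFDerivAt {f : Pt → ℝ} (hf : C1 f) (i : Fin 4) (x : Pt) :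
    HasFDerivAt (avg i f) (∫ s in (0:ℝ)..1, fderiv ℝ f (x + s • Pi.single i 1)) x := by
  have hd : Continuous (fderiv ℝ f) := hf.continuous_fderiv (by norm_num)
  obtain ⟨M, hM⟩ := ((isCompact_closedBall x (1:ℝ)).prod
    (isCompact_uIcc (a := (0:ℝ)) (b := 1))).exists_bound_of_continuousOn
      (cont_line hd i).continuousOn
  refine intervalIntegral.hasFDerivAt_integral_of_dominated_of_fderiv_le
    (μ := volume) (F := fun y s => f (y + s • Pi.single i 1))
    (F' := fun y s => fderiv ℝ f (y + s • Pi.single i 1)) (bound := fun _ => M)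
    (Metric.closedBall_mem_nhds x one_pos)
    (.of_forall fun y => (cont_line' hf.continuous i y).aestronglyMeasurable)
    ((cont_line' hf.continuous i x).intervalIntegrable 0 1)
    (cont_line' hd i x).aestronglyMeasurable ?_ intervalIntegrable_const ?_
  · refine .of_forall fun s hs y hy => ?_
    exact hM (y, s) ⟨hy, Set.uIoc_subset_uIcc hs⟩
  · refine .of_forall fun s _ y _ => ?_
    exact ((hf.differentiable (by norm_num)).differentiableAt.hasFDerivAt).comp y
      ((hasFDerivAt_id y).add_const _)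

theorem avg_c1 {f : Pt → ℝ} (hf : C1 f) (i : Fin 4) : C1 (avg i f) := by
  have hd : Continuous (fderiv ℝ f) := hf.continuous_fderiv (by norm_num)
  refine contDiff_one_iff_fderiv.2 ⟨fun x => (avg_hasFDerivAt hf i x).differentiableAt, ?_⟩
  rw [show fderiv ℝ (avg i f) = fun x => ∫ s in (0:ℝ)..1, fderiv ℝ f (x + s • Pi.single i 1) from
    funext fun x => (avg_hasFDerivAt hf i x).fderiv]
  exact continuous_parametric_intervalIntegral_of_continuous' (cont_line hd i) 0 1

theorem avg3_c1 {f : Pt → ℝ} (hf : C1 f) : C1 (avg3 f) :=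
  avg_c1 (avg_c1 (avg_c1 hf 3) 2) 1

theorem pd_avg {f : Pt → ℝ} (hf : C1 f) (i j : Fin 4) : pd j (avg i f) = avg i (pd j f) := by
  funext x
  have hd : Continuous (fderiv ℝ f) := hf.continuous_fderiv (by norm_num)
  rw [pd, (avg_hasFDerivAt hf i x).fderiv,
    ContinuousLinearMap.intervalIntegral_apply ((cont_line' hd i x).intervalIntegrable 0 1)]
  rfl

theorem periodic_avg {f : Pt → ℝ} (hp : Periodic4 f) (i : Fin 4) : Periodic4 (avg i f) := by
  intro j x
  unfold avg
  congr 1; funext s
  rw [add_right_comm, hp j]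

theorem avg_pd_self {f : Pt → ℝ} (hf : C1 f) (hp : Periodic4 f) (i : Fin 4) :
    avg i (pd i f) = 0 := by
  funext x
  have hd : Continuous (fderiv ℝ f) := hf.continuous_fderiv (by norm_num)
  have h : ∀ s ∈ Set.uIcc (0:ℝ) 1,
      HasDerivAt (fun t => f (x + t • Pi.single i 1)) (pd i f (x + s • Pi.single i 1)) s := by
    intro s _
    have h1 : HasDerivAt (fun t : ℝ => x + t • (Pi.single i 1 : Pt)) (Pi.single i 1) s := by
      simpa using ((hasDerivAt_id s).smul_const (Pi.single i (1:ℝ) : Pt)).const_add x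
    exact ((hf.differentiable (by norm_num)).differentiableAt.hasFDerivAt).comp_hasDerivAt s h1
  rw [avg, integral_eq_sub_of_hasDerivAt h
    (((cont_line' hd i x).clm_apply continuous_const).intervalIntegrable 0 1)]
  simp [hp i x]

theorem avg_zero (i : Fin 4) : avg i (fun _ => (0:ℝ)) = fun _ => 0 := by
  funext x; simp [avg]

theorem pd_avg3 {f : Pt → ℝ} (hf : C1 f) (j : Fin 4) : pd j (avg3 f) = avg3 (pd j f) := by
  rw [avg3, pd_avg (avg_c1 (avg_c1 hf 3) 2), pd_avg (avg_c1 hf 3), pd_avg hf]
  rfl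

theorem avg3_pd_spatial {f : Pt → ℝ} (hf : C1 f) (hp : Periodic4 f) {j : Fin 4} (hj : j ≠ 0) :
    avg3 (pd j f) = fun _ => 0 := by
  have h3 : avg 3 (pd 3 f) = fun _ => (0:ℝ) := avg_pd_self hf hp 3
  fin_cases j
  · simp at hj
  · show avg 1 (avg 2 (avg 3 (pd 1 f))) = _
    rw [← pd_avg hf, ← pd_avg (avg_c1 hf 3)]
    exact avg_pd_self (avg_c1 (avg_c1 hf 3) 2) (periodic_avg (periodic_avg hp 3) 2) 1
  · show avg 1 (avg 2 (avg 3 (pd 2 f))) = _
    rw [← pd_avg hf, avg_pd_self (avg_c1 hf 3) (periodic_avg hp 3) 2]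
    exact avg_zero 1
  · show avg 1 (avg 2 (avg 3 (pd 3 f))) = _
    rw [h3, avg_zero, avg_zero]

theorem avg_sum {ι : Type} (t : Finset ι) {f : ι → Pt → ℝ} (hf : ∀ k, Continuous (f k))
    (i : Fin 4) : avg i (fun x => ∑ k ∈ t, f k x) = fun x => ∑ k ∈ t, avg i (f k) x := by
  funext x
  exact integral_finsetSum fun k _ => (cont_line' (hf k) i x).intervalIntegrable 0 1

theorem avg_cont {f : Pt → ℝ} (hf : Continuous f) (i : Fin 4) : Continuous (avg i f) :=
  continuous_parametric_intervalIntegral_of_continuous' (cont_line hf i) 0 1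

theorem avg3_sum {ι : Type} (t : Finset ι) {f : ι → Pt → ℝ} (hf : ∀ k, Continuous (f k)) :
    avg3 (fun x => ∑ k ∈ t, f k x) = fun x => ∑ k ∈ t, avg3 (f k) x := by
  unfold avg3
  rw [avg_sum t hf, avg_sum t (fun k => avg_cont (hf k) 3),
    avg_sum t (fun k => avg_cont (avg_cont (hf k) 3) 2)]

theorem avg3_const_mul (c : ℝ) (f : Pt → ℝ) :
    avg3 (fun x => c * f x) = fun x => c * avg3 f x := by
  funext x
  simp only [avg3, avg, intervalIntegral.integral_const_mul]

theorem avg3_pos {f : Pt → ℝ} (hf : Continuous f) {x : Pt}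
    (hpos : ∀ a b c : ℝ, 0 < f (x + a • Pi.single 1 1 + b • Pi.single 2 1 + c • Pi.single 3 1)) :
    0 < avg3 f x :=
  intervalIntegral_pos_of_pos
    ((cont_line' (avg_cont (avg_cont hf 3) 2) 1 x).intervalIntegrable 0 1)
    (fun a => intervalIntegral_pos_of_pos
      ((cont_line' (avg_cont hf 3) 2 _).intervalIntegrable 0 1)
      (fun b => intervalIntegral_pos_of_pos
        ((cont_line' hf 3 _).intervalIntegrable 0 1) (fun c => hpos a b c) one_pos) one_pos)
    one_pos

theorem eq_of_pd_eq_zero {f : Pt → ℝ} (hf : C1 f) (h : ∀ i x, pd i f x = 0) (x y : Pt) :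
    f x = f y := by
  refine is_const_of_fderiv_eq_zero (hf.differentiable (by norm_num)) (fun z => ?_) x y
  ext v
  have : v = ∑ i, v i • (Pi.single i 1 : Pt) := by
    funext j; simp [Finset.sum_apply, Pi.single_apply]
  rw [this, map_sum]
  simp only [map_smul]
  simp [show ∀ i, fderiv ℝ f z (Pi.single i 1) = 0 from fun i => h i z]

/-- Stokes: the slice averages of the spatial coefficients of a closed form are constant. -/
theorem avg3_coeff_const {om : Pt → Matrix (Fin 4) (Fin 4) ℝ} (h : IsClosedForm om)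
    {j k : Fin 4} (hj : j ≠ 0) (hk : k ≠ 0) (x y : Pt) :
    avg3 (fun z => om z j k) x = avg3 (fun z => om z j k) y := by
  have hs : ∀ a b, C1 fun z => om z a b := fun a b => (h.smooth a b).of_le (by norm_num)
  have hp : ∀ a b, Periodic4 fun z => om z a b := fun a b i z => by simp only [h.periodic i z]
  refine eq_of_pd_eq_zero (avg3_c1 (hs j k)) (fun i z => ?_) x y
  rw [pd_avg3 (hs j k)]
  by_cases hi : i = 0
  · subst hi
    let g : Fin 2 → Pt → ℝ := fun b => fun w =>
      (-1) * ![pd j (fun z => om z k 0), pd k (fun z => om z 0 j)] b w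
    have he : pd 0 (fun z => om z j k) = fun w => ∑ b, g b w := by
      funext w
      simp only [g, Fin.sum_univ_two, Matrix.cons_val_zero, Matrix.cons_val_one]
      linarith [h.closed 0 j k w]
    have hc : ∀ a b c, Continuous (pd a fun z => om z b c) := fun a b c =>
      ((hs b c).continuous_fderiv (by norm_num)).clm_apply continuous_const
    have hg : ∀ b, Continuous (g b) := by
      intro b
      fin_cases b
      · exact continuous_const.mul (hc _ _ _)
      · exact continuous_const.mul (hc _ _ _)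
    rw [he, avg3_sum _ hg]
    simp only [g, Fin.sum_univ_two, avg3_const_mul, Matrix.cons_val_zero, Matrix.cons_val_one,
      avg3_pd_spatial (hs _ _) (hp _ _) hj, avg3_pd_spatial (hs _ _) (hp _ _) hk]
    norm_num
  · rw [avg3_pd_spatial (hs j k) (hp j k) hi]

end Vale.Agent.P204
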