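import Mathlib
import Vale.Agent.P204.Defs
import Vale.Agent.P204.Avg
import Vale.Agent.P204.Algebra

/-! # P204: tamed implies compatible for almost complex structures of one coordinate on `T⁴` -/

open scoped Matrix ContDiff
open Matrix

namespace Vale.Agent.P204

theorem smooth_mul {A B : Pt → M4} (hA : ∀ i k, ContDiff ℝ ∞ fun x => A x i k)
    (hB : ∀ i k, ContDiff ℝ ∞ fun x => B x i k) (i k : Fin 4) :
    ContDiff ℝ ∞ fun x => (A x * B x) i k := by
  simp only [Matrix.mul_apply]
  exact ContDiff.sum fun l _ => (hA i l).mul (hB l k)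

theorem smooth_mulVec {A : Pt → M4} {v : Pt → Pt} (hA : ∀ i k, ContDiff ℝ ∞ fun x => A x i k)
    (hv : ∀ k, ContDiff ℝ ∞ fun x => v x k) (i : Fin 4) :
    ContDiff ℝ ∞ fun x => (A x *ᵥ v x) i := by
  simp only [Matrix.mulVec, dotProduct]
  exact ContDiff.sum fun l _ => (hA i l).mul (hv l)

theorem smooth_vecMulVec {a b : Pt → Pt} (ha : ∀ k, ContDiff ℝ ∞ fun x => a x k)
    (hb : ∀ k, ContDiff ℝ ∞ fun x => b x k) (i k : Fin 4) :
    ContDiff ℝ ∞ fun x => vecMulVec (a x) (b x) i k := by
  simp only [vecMulVec_apply]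
  exact (ha i).mul (hb k)

theorem smooth_row0 {J : Pt → M4} (hJ : ∀ i k, ContDiff ℝ ∞ fun x => J x i k) (k : Fin 4) :
    ContDiff ℝ ∞ fun x => row0 (J x) k := hJ 0 k

theorem smooth_vertForm {J : Pt → M4} (hJ : ∀ i k, ContDiff ℝ ∞ fun x => J x i k) (i k : Fin 4) :
    ContDiff ℝ ∞ fun x => vertForm (J x) i k :=
  (smooth_vecMulVec (smooth_row0 hJ) (fun _ => contDiff_const) i k).sub
    (smooth_vecMulVec (fun _ => contDiff_const) (smooth_row0 hJ) i k)

theorem smooth_invForm {J : Pt → M4} (hJ : ∀ i k, ContDiff ℝ ∞ fun x => J x i k)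
    (hsq : ∀ x, J x * J x = -1) (C : M4) (i k : Fin 4) :
    ContDiff ℝ ∞ fun x => invForm C (J x) i k := by
  have hC : ∀ a b : Fin 4, ContDiff ℝ ∞ fun _ : Pt => C a b := fun _ _ => contDiff_const
  have hS : ∀ l, ContDiff ℝ ∞ fun x => rowS (J x) l := fun l => by
    by_cases h : l = 0
    · simp only [rowS, h, if_true]; exact contDiff_const
    · simp only [rowS, h, if_false]; exact hJ 0 l
  have hu : ∀ l, ContDiff ℝ ∞ fun x => uVec (J x) l := fun l => by
    have hd : ContDiff ℝ ∞ fun x => rowS (J x) ⬝ᵥ rowS (J x) := by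
      simp only [dotProduct]; exact ContDiff.sum fun m _ => (hS m).mul (hS m)
    exact (hd.inv fun x => (rowS_pos (hsq x)).ne').mul (hS l)
  have hP : ∀ a b, ContDiff ℝ ∞ fun x => proj (J x) a b := fun a b =>
    ((contDiff_const (c := (1 : M4) a b)).sub
      (smooth_vecMulVec (smooth_mulVec hJ hu) (fun _ => contDiff_const) a b)).sub
      (smooth_vecMulVec hu (smooth_row0 hJ) a b)
  have hPt : ∀ a b, ContDiff ℝ ∞ fun x => (proj (J x))ᵀ a b := fun a b => hP b a
  have hk : ∀ l, ContDiff ℝ ∞ fun x => kVec C (J x) l :=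
    smooth_mulVec hPt (smooth_mulVec hC hu)
  have hm : ∀ l, ContDiff ℝ ∞ fun x => mVec C (J x) l :=
    smooth_mulVec hPt (smooth_mulVec (fun a b => hJ b a) (smooth_mulVec hC hu))
  exact (((smooth_mul (smooth_mul hPt hC) hP i k).add
    ((smooth_vecMulVec hk (smooth_row0 hJ) i k).sub
      (smooth_vecMulVec (smooth_row0 hJ) hk i k)))).sub
    ((smooth_vecMulVec hm (fun _ => contDiff_const) i k).sub
      (smooth_vecMulVec (fun _ => contDiff_const) hm i k))

theorem pd_eq_zero_of_const (i : Fin 4) {f : Pt → ℝ} (h : ∀ x y, f x = f y) (x : Pt) :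
    pd i f x = 0 := by
  have : f = fun _ => f x := funext fun y => h y x
  rw [this]; simp [pd]

theorem pd_spatial_of_dep {i : Fin 4} (hi : i ≠ 0) {f : Pt → ℝ} (hf : Differentiable ℝ f)
    (h : ∀ x y : Pt, x 0 = y 0 → f x = f y) (x : Pt) : pd i f x = 0 := by
  have hl : HasDerivAt (fun t : ℝ => f (x + t • Pi.single i 1)) (pd i f x) 0 := by
    have h1 : HasDerivAt (fun t : ℝ => x + t • (Pi.single i 1 : Pt)) (Pi.single i 1) 0 := by
      simpa using ((hasDerivAt_id (0:ℝ)).smul_const (Pi.single i (1:ℝ) : Pt)).const_add x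
    have h2 : HasFDerivAt f (fderiv ℝ f x) (x + (0:ℝ) • (Pi.single i 1 : Pt)) := by
      simpa using (hf x).hasFDerivAt
    exact h2.comp_hasDerivAt 0 h1
  have hc : (fun t : ℝ => f (x + t • Pi.single i 1)) = fun _ => f x :=
    funext fun t => h _ _ (by simp [Ne.symm hi])
  rw [hc] at hl
  exact hl.unique (hasDerivAt_const 0 (f x))

theorem pd_zero_skew {S : Pt → M4} (hS : ∀ x, (S x)ᵀ = -S x) (a b : Fin 4) (x : Pt) :
    pd 0 (fun y => S y a b) x = -pd 0 (fun y => S y b a) x := by
  have : (fun y => S y a b) = -(fun y => S y b a) := funext fun y => by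
    have := congr_fun (congr_fun (hS y) b) a
    simpa using this
  rw [this, pd, pd, fderiv_neg]; rfl

/-- Forms depending only on `x₀`, with constant spatial coefficients, are closed. -/
theorem closed_of_dep {S : Pt → M4} (hd : ∀ a b, Differentiable ℝ fun x => S x a b)
    (hdep : ∀ x y : Pt, x 0 = y 0 → S x = S y) (hskew : ∀ x, (S x)ᵀ = -S x)
    (hconst : ∀ a b : Fin 4, a ≠ 0 → b ≠ 0 → ∀ x y, S x a b = S y a b) (i j k : Fin 4) (x : Pt) :
    pd i (fun y => S y j k) x + pd j (fun y => S y k i) x + pd k (fun y => S y i j) x = 0 := by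
  have key : ∀ a b c : Fin 4, (a ≠ 0 ∨ (b ≠ 0 ∧ c ≠ 0)) → pd a (fun y => S y b c) x = 0 := by
    intro a b c h
    rcases h with ha | ⟨hb, hc⟩
    · exact pd_spatial_of_dep ha (hd b c) (fun p q hpq => by rw [hdep p q hpq]) x
    · exact pd_eq_zero_of_const a (hconst b c hb hc) x
  have sk := fun a b => pd_zero_skew hskew a b x
  by_cases hi : i = 0 <;> by_cases hj : j = 0 <;> by_cases hk : k = 0
  · subst hi hj hk; linarith [sk 0 0]
  · subst hi hj; linarith [sk 0 k, key k 0 0 (.inl hk)]
  · subst hi hk; linarith [sk 0 j, sk j 0, key j 0 0 (.inl hj)]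
  · subst hi; linarith [key 0 j k (.inr ⟨hj, hk⟩), key j k 0 (.inl hj), key k 0 j (.inl hk)]
  · subst hj hk; linarith [key i 0 0 (.inl hi), sk 0 i]
  · subst hj; linarith [key i 0 k (.inl hi), key 0 k i (.inr ⟨hk, hi⟩), key k i 0 (.inl hk)]
  · subst hk; linarith [key i j 0 (.inl hi), key j 0 i (.inl hj), key 0 i j (.inr ⟨hi, hj⟩)]
  · linarith [key i j k (.inl hi), key j k i (.inl hj), key k i j (.inl hk)]

theorem ev_smul_left (A : M4) (c : ℝ) (v w : Pt) : ev A (c • v) w = c * ev A v w := by
  simp [ev]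

/-- Donaldson's question for almost complex structures on `T⁴` depending on one coordinate. -/
theorem exists_compatible (J : Pt → M4) (hJ : IsAlmostComplex J)
    (hdep : ∀ x y : Pt, x 0 = y 0 → J x = J y) (om : Pt → M4) (hom : IsClosedForm om)
    (ht : Tames om J) :
    ∃ s, IsClosedForm s ∧ Tames s J ∧ Invariant s J := by
  classical
  let C : M4 := Matrix.of fun a b =>
    if a = 0 ∨ b = 0 then 0 else avg3 (fun z => om z a b) 0
  have hskz : ∀ z a b, om z a b = -om z b a := fun z a b => by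
    have := congr_fun (congr_fun (hom.skew z) b) a
    simpa using this
  have hC : Cᵀ = -C := by
    ext a b
    simp only [C, transpose_apply, Matrix.neg_apply, Matrix.of_apply, or_comm (a := b = 0)]
    by_cases h : a = 0 ∨ b = 0
    · simp [h]
    · simp only [h, if_false]
      have : (fun z => om z b a) = fun z => (-1) * om z a b := funext fun z => by
        rw [hskz z b a]; ring
      rw [this, avg3_const_mul]; ring
  -- taming of `C` on complex lines inside `{v₀ = 0}`
  have hline : ∀ (x q : Pt), q ≠ 0 → q 0 = 0 → row0 (J x) ⬝ᵥ q = 0 →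
      0 < ev C q (J x *ᵥ q) := by
    intro x q hq q0 qr
    set w : Pt := J x *ᵥ q with hw
    have w0 : w 0 = 0 := qr
    let g : Fin 4 × Fin 4 → Pt → ℝ := fun p z => q p.1 * w p.2 * om z p.1 p.2
    have hg : ∀ p, Continuous (g p) := fun p =>
      continuous_const.mul (hom.smooth p.1 p.2).continuous
    have hsum : ∀ z, (∑ p, g p z) = ev (om z) q w := by
      intro z
      simp only [g, ev, dotProduct, Matrix.mulVec, Fintype.sum_prod_type, Finset.mul_sum]
      exact Finset.sum_congr rfl fun a _ => Finset.sum_congr rfl fun b _ => by ring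
    have hev : ev C q w = avg3 (fun z => ∑ p, g p z) x := by
      rw [avg3_sum _ hg]
      simp only [g, avg3_const_mul, ev, dotProduct, Matrix.mulVec, Fintype.sum_prod_type,
        Finset.mul_sum]
      refine Finset.sum_congr rfl fun a _ => Finset.sum_congr rfl fun b _ => ?_
      by_cases ha : a = 0
      · subst ha; simp [q0]
      by_cases hb : b = 0
      · subst hb; simp [w0]
      simp only [C, Matrix.of_apply, ha, hb, or_self, if_false]
      rw [avg3_coeff_const hom ha hb 0 x]; ring
    rw [hev]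
    refine avg3_pos (continuous_finsetSum _ fun p _ => hg p) fun a b c => ?_
    rw [hsum, hw]
    set z := x + a • Pi.single 1 1 + b • Pi.single 2 1 + c • Pi.single 3 1
    rw [hdep x z (by simp [z])]
    exact ht z q hq
  -- a uniform multiple of the vertical form
  let P : ℝ → Pt := fun t => Pi.single 0 t
  have hP : Continuous P := continuous_pi fun i => by
    by_cases h : i = 0
    · subst h; simp only [P, Pi.single_eq_same]; exact continuous_id
    · simp only [P, Pi.single_eq_of_ne h]; exact continuous_const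
  have hinv := smooth_invForm hJ.smooth hJ.sq C
  let F : ℝ × Pt → ℝ := fun p => ev (invForm C (J (P p.1))) p.2 (J (P p.1) *ᵥ p.2)
  let G : ℝ × Pt → ℝ := fun p => ev (vertForm (J (P p.1))) p.2 (J (P p.1) *ᵥ p.2)
  have hcont : ∀ T : Pt → M4, (∀ a b, ContDiff ℝ ∞ fun x => T x a b) →
      Continuous fun p : ℝ × Pt => ev (T (P p.1)) p.2 (J (P p.1) *ᵥ p.2) := by
    intro T hT
    have hTc : ∀ a b, Continuous fun p : ℝ × Pt => T (P p.1) a b := fun a b =>
      (hT a b).continuous.comp (hP.comp continuous_fst)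
    have hJc : ∀ a b, Continuous fun p : ℝ × Pt => J (P p.1) a b := fun a b =>
      (hJ.smooth a b).continuous.comp (hP.comp continuous_fst)
    simp only [ev, dotProduct, Matrix.mulVec]
    refine continuous_finsetSum _ fun a _ => ((continuous_apply a).comp continuous_snd).mul
      (continuous_finsetSum _ fun b _ => (hTc a b).mul
        (continuous_finsetSum _ fun l _ => (hJc b l).mul ((continuous_apply l).comp continuous_snd)))
  have hF : Continuous F := hcont _ hinv
  have hG : Continuous G := hcont _ (smooth_vertForm hJ.smooth)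
  have hG0 : ∀ p, 0 ≤ G p := fun p => by
    simp only [G]; rw [ev_vertForm_J (hJ.sq _)]; positivity
  obtain ⟨n, hn⟩ := ((isCompact_Icc (a := (0:ℝ)) (b := 1)).prod
    (isCompact_sphere (0 : Pt) 1)).elim_directed_cover
    (fun m : ℕ => {p | 0 < F p + (m : ℝ) * G p})
    (fun m => isOpen_lt continuous_const (hF.add (continuous_const.mul hG)))
    (by
      intro p hp
      have hv : p.2 ≠ 0 := fun h => by simpa [h] using hp.2
      simp only [Set.mem_iUnion, Set.mem_ofPred_eq]
      by_cases hg : G p = 0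
      · refine ⟨0, ?_⟩
        simp only [G] at hg
        rw [ev_vertForm_J (hJ.sq _)] at hg
        have q0 : p.2 0 = 0 := by nlinarith [sq_nonneg (row0 (J (P p.1)) ⬝ᵥ p.2)]
        have qr : row0 (J (P p.1)) ⬝ᵥ p.2 = 0 := by nlinarith [sq_nonneg (p.2 0)]
        simp only [Nat.cast_zero, zero_mul, add_zero, F]
        rw [ev_invForm_line (hJ.sq _) q0 qr]
        exact hline _ _ hv q0 qr
      · obtain ⟨m, hm⟩ := exists_nat_gt (-F p / G p)
        refine ⟨m, ?_⟩
        have := (div_lt_iff₀ (lt_of_le_of_ne (hG0 p) (Ne.symm hg))).1 hm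
        linarith)
    (directed_of_isDirected_le fun m m' hmm p hp => by
      have : (m : ℝ) * G p ≤ (m' : ℝ) * G p :=
        mul_le_mul_of_nonneg_right (by exact_mod_cast hmm) (hG0 p)
      simp only [Set.mem_ofPred_eq] at hp ⊢; linarith)
  let S : Pt → M4 := fun x => invForm C (J x) + (n : ℝ) • vertForm (J x)
  have hSsm : ∀ a b, ContDiff ℝ ∞ fun x => S x a b := fun a b =>
    (hinv a b).add (contDiff_const.mul (smooth_vertForm hJ.smooth a b))
  have hSskew : ∀ x, (S x)ᵀ = -S x := fun x => by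
    simp only [S, transpose_add, transpose_smul, invForm_skew hC, vertForm_skew, smul_neg]
    abel
  refine ⟨S, ⟨hSsm, fun i x => by simp only [S, hJ.periodic i x], hSskew, ?_⟩, ?_, ?_⟩
  · refine closed_of_dep (fun a b => (hSsm a b).differentiable (by norm_num))
      (fun x y h => by simp only [S, hdep x y h]) hSskew ?_
    intro a b ha hb x y
    simp [S, invForm_spatial hC ha hb, vertForm_spatial _ ha hb]
  · intro x v hv
    have hper : Function.Periodic (fun t => J (P t)) 1 := fun t => by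
      simp only [P]; rw [Pi.single_add]; exact hJ.periodic 0 _
    have hJx : J x = J (P (Int.fract (x 0))) := by
      rw [hdep x (P (x 0)) (by simp [P])]
      have h := hper.sub_int_mul_eq ⌊x 0⌋ (x := x 0)
      rw [mul_one] at h
      exact h.symm
    have hnv : 0 < ‖v‖ := norm_pos_iff.2 hv
    have hmem : ((Int.fract (x 0), ‖v‖⁻¹ • v) : ℝ × Pt) ∈
        Set.Icc (0:ℝ) 1 ×ˢ Metric.sphere (0 : Pt) 1 :=
      ⟨⟨Int.fract_nonneg _, (Int.fract_lt_one _).le⟩, by
        simp [norm_smul, hnv.ne']⟩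
    have h := hn hmem
    simp only [Set.mem_ofPred_eq, F, G, ← hJx, mulVec_smul] at h
    show 0 < ev (S x) v (J x *ᵥ v)
    have e : ∀ A : M4, ev A (‖v‖⁻¹ • v) (‖v‖⁻¹ • (J x *ᵥ v))
        = ‖v‖⁻¹ ^ 2 * ev A v (J x *ᵥ v) := fun A => by
      simp [ev, mulVec_smul]; ring
    rw [e, e] at h
    have : 0 < ‖v‖⁻¹ ^ 2 * ev (S x) v (J x *ᵥ v) := by
      have : ev (S x) v (J x *ᵥ v)
          = ev (invForm C (J x)) v (J x *ᵥ v) + n * ev (vertForm (J x)) v (J x *ᵥ v) := by
        simp [S, ev, Matrix.add_mul, add_mulVec, smul_mulVec]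
      rw [this]; linarith
    exact (mul_pos_iff_of_pos_left (by positivity)).1 this
  · intro x
    simp only [S, Matrix.mul_add, Matrix.add_mul, Matrix.mul_smul, Matrix.smul_mul,
      invForm_invariant hC (hJ.sq x), vertForm_invariant (hJ.sq x)]

end Vale.Agent.P204
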